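import Mathlib.Analysis.Calculus.Rademacher
import Mathlib.Analysis.InnerProductSpace.Calculus
import Mathlib.Analysis.InnerProductSpace.Dual
import Mathlib.Analysis.InnerProductSpace.PiL2
import Mathlib.Analysis.Convex.Continuous
import Mathlib.Analysis.LocallyConvex.Separation
import Mathlib.MeasureTheory.Function.Jacobian
import Mathlib.MeasureTheory.Measure.Hausdorff
import Mathlib.MeasureTheory.Measure.Haar.Unique
import Mathlib.Tactic

/-!
Alexandrov's theorem for convex functions on a finite dimensional inner product space, by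
Minty's resolvent, Rademacher's theorem and the Sard lemma.
-/

open MeasureTheory Set Filter Metric Module
open scoped Topology RealInnerProductSpace NNReal ENNReal

namespace Vale.Agent.Common.Alexandrov

variable {E : Type*} [NormedAddCommGroup E] [InnerProductSpace ℝ E] [FiniteDimensional ℝ E]

/-- `p` is a subgradient of `f` at `x`. -/
def IsSubgrad (f : E → ℝ) (x p : E) : Prop := ∀ y : E, f x + ⟪p, y - x⟫ ≤ f y

lemma exists_subgrad {f : E → ℝ} (hf : ConvexOn ℝ univ f) (x : E) : ∃ p, IsSubgrad f x p := by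
  have hcont : Continuous f := hf.locallyLipschitz.continuous
  have hs : Convex ℝ {q : E × ℝ | f q.1 < q.2} := by
    have h := hf.convex_strict_epigraph
    simpa using h
  have hopen : IsOpen {q : E × ℝ | f q.1 < q.2} :=
    isOpen_lt (hcont.comp continuous_fst) continuous_snd
  obtain ⟨L, hL⟩ := geometric_hahn_banach_open_point hs hopen
    (x := (x, f x)) (fun h => lt_irrefl (f x) h)
  set c := L (0, 1) with hc
  have hdec : ∀ (y : E) (t : ℝ), L (y, t) = L (y, 0) + t * c := fun y t => by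
    have e : (y, t) = (y, (0 : ℝ)) + t • ((0 : E), (1 : ℝ)) := by simp
    conv_lhs => rw [e]
    rw [map_add, map_smul, smul_eq_mul]
  have hc0 : c < 0 := by
    have h := hL (x, f x + 1) (show f x < f x + 1 by linarith)
    rw [hdec x (f x + 1), hdec x (f x)] at h
    linarith
  set l : StrongDual ℝ E := L.comp (ContinuousLinearMap.inl ℝ E ℝ) with hl
  refine ⟨(-c)⁻¹ • (InnerProductSpace.toDual ℝ E).symm l, fun y => ?_⟩
  rw [real_inner_smul_left, InnerProductSpace.toDual_symm_apply, map_sub]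
  have key : L (y, 0) + f y * c ≤ L (x, 0) + f x * c := by
    refine le_of_forall_pos_lt_add fun ε hε => ?_
    have hd : 0 < ε / (-c) := div_pos hε (by linarith)
    have h := hL (y, f y + ε / (-c)) (show f y < f y + ε / (-c) by linarith)
    rw [hdec y, hdec x] at h
    have e : ε / (-c) * c = -ε := by
      have := hc0.ne
      field_simp
    rw [add_mul, e] at h
    linarith
  have e1 : l y = L (y, 0) := by simp [hl]
  have e2 : l x = L (x, 0) := by simp [hl]
  rw [e1, e2, inv_mul_eq_div, ← le_sub_iff_add_le', div_le_iff₀ (by linarith)]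
  linarith

lemma IsSubgrad.mono {f : E → ℝ} {x y p q : E} (hp : IsSubgrad f x p) (hq : IsSubgrad f y q) :
    0 ≤ ⟪p - q, x - y⟫ := by
  have h1 := hp y
  have h2 := hq x
  rw [show y - x = -(x - y) by abel, inner_neg_right] at h1
  rw [inner_sub_left]
  linarith

lemma exists_prox {f : E → ℝ} (hf : ConvexOn ℝ univ f) (z : E) :
    ∃ x, IsSubgrad f x (z - x) := by
  have hcont : Continuous f := hf.locallyLipschitz.continuous
  obtain ⟨p, hp⟩ := exists_subgrad hf z
  set g : E → ℝ := fun y => f y + ‖y - z‖ ^ 2 / 2 with hg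
  obtain ⟨x, hx⟩ : ∃ x, ∀ y, g x ≤ g y := by
    have hgc : Continuous g := by fun_prop
    set R : ℝ := 2 * ‖p‖ + 1 with hR
    obtain ⟨x, hxm, hx⟩ := (isCompact_closedBall z R).exists_isMinOn
      ⟨z, mem_closedBall_self (by positivity)⟩ hgc.continuousOn
    refine ⟨x, fun y => ?_⟩
    by_cases hy : y ∈ closedBall z R
    · exact hx hy
    · have h1 : g x ≤ g z := hx (mem_closedBall_self (by positivity))
      rw [mem_closedBall, dist_eq_norm, not_le] at hy
      have h2 := hp y
      have h3 : -(‖p‖ * ‖y - z‖) ≤ ⟪p, y - z⟫ :=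
        (abs_le.1 (abs_real_inner_le_norm p (y - z))).1
      have h4 : g z = f z := by simp [hg]
      have hn := norm_nonneg p
      simp only [hg] at h1 h4 ⊢
      nlinarith
  refine ⟨x, fun y => ?_⟩
  refine le_of_forall_pos_lt_add fun ε hε => ?_
  set t : ℝ := min 1 (ε / (‖y - x‖ ^ 2 + 1)) with ht
  have ht0 : 0 < t := lt_min one_pos (by positivity)
  have ht1 : t ≤ 1 := min_le_left _ _
  have h := hx (x + t • (y - x))
  have hconv := hf.2 (mem_univ x) (mem_univ y) (show 0 ≤ 1 - t by linarith) ht0.le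
    (show (1 - t) + t = 1 by ring)
  have e : (1 - t) • x + t • y = x + t • (y - x) := by
    rw [smul_sub, sub_smul, one_smul]; abel
  rw [e, smul_eq_mul, smul_eq_mul] at hconv
  simp only [hg] at h
  have e2 : ‖x + t • (y - x) - z‖ ^ 2
      = ‖x - z‖ ^ 2 + 2 * t * ⟪x - z, y - x⟫ + t ^ 2 * ‖y - x‖ ^ 2 := by
    rw [show x + t • (y - x) - z = (x - z) + t • (y - x) by abel, norm_add_sq_real,
      real_inner_smul_right, norm_smul, mul_pow, Real.norm_eq_abs, sq_abs]
    ring
  rw [e2] at h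
  have e3 : ⟪z - x, y - x⟫ = -⟪x - z, y - x⟫ := by
    rw [show z - x = -(x - z) by abel, inner_neg_left]
  rw [e3]
  have h5 : t * ‖y - x‖ ^ 2 < 2 * ε := by
    have h6 : t * (‖y - x‖ ^ 2 + 1) ≤ ε :=
      (le_div_iff₀ (by positivity)).1 (min_le_right _ _)
    nlinarith
  have h7 : 0 ≤ t * (f y - f x + ⟪x - z, y - x⟫ + t * ‖y - x‖ ^ 2 / 2) := by nlinarith
  have h8 := nonneg_of_mul_nonneg_right h7 ht0
  linarith

/-- The resolvent (proximal map) of `f`. -/
noncomputable def prox {f : E → ℝ} (hf : ConvexOn ℝ univ f) (z : E) : E :=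
  (exists_prox hf z).choose

lemma prox_spec {f : E → ℝ} (hf : ConvexOn ℝ univ f) (z : E) :
    IsSubgrad f (prox hf z) (z - prox hf z) :=
  (exists_prox hf z).choose_spec

lemma norm_prox_sub_sq_le {f : E → ℝ} (hf : ConvexOn ℝ univ f) (z w : E) :
    ‖prox hf z - prox hf w‖ ^ 2 ≤ ⟪z - w, prox hf z - prox hf w⟫ := by
  have h := (prox_spec hf z).mono (prox_spec hf w)
  rw [show z - prox hf z - (w - prox hf w) = (z - w) - (prox hf z - prox hf w) by abel,
    inner_sub_left, real_inner_self_eq_norm_sq] at h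
  linarith

lemma lipschitz_prox {f : E → ℝ} (hf : ConvexOn ℝ univ f) : LipschitzWith 1 (prox hf) := by
  refine LipschitzWith.of_dist_le_mul fun z w => ?_
  rw [dist_eq_norm, dist_eq_norm, NNReal.coe_one, one_mul]
  have h1 := norm_prox_sub_sq_le hf z w
  have h2 := real_inner_le_norm (z - w) (prox hf z - prox hf w)
  by_contra hc
  rw [not_le] at hc
  nlinarith [norm_nonneg (z - w)]

lemma eq_prox_of_subgrad {f : E → ℝ} (hf : ConvexOn ℝ univ f) {x p : E} (hp : IsSubgrad f x p) :
    prox hf (x + p) = x := by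
  have h := hp.mono (prox_spec hf (x + p))
  rw [show p - (x + p - prox hf (x + p)) = -(x - prox hf (x + p)) by abel, inner_neg_left,
    real_inner_self_eq_norm_sq, le_neg, neg_zero] at h
  have : ‖x - prox hf (x + p)‖ = 0 := by nlinarith [norm_nonneg (x - prox hf (x + p))]
  exact (sub_eq_zero.1 (norm_eq_zero.1 this)).symm

/-- First and second order data of `f` at `x`: subgradients near `x` are `p + A h + o(h)` and
`f (x + h) = f x + ⟪p, h⟫ + ⟪A h, h⟫ / 2 + o(‖h‖²)`. -/
def SecondOrderAt (f : E → ℝ) (x p : E) (A : E →L[ℝ] E) : Prop :=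
  IsSubgrad f x p ∧ (∀ q, IsSubgrad f x q → q = p) ∧
  (∀ h k, ⟪A h, k⟫ = ⟪h, A k⟫) ∧ (∀ h, 0 ≤ ⟪A h, h⟫) ∧
  (∀ ε > (0 : ℝ), ∃ δ > (0 : ℝ), ∀ h q, ‖h‖ ≤ δ → IsSubgrad f (x + h) q →
    ‖q - p - A h‖ ≤ ε * ‖h‖) ∧
  ∀ ε > (0 : ℝ), ∃ δ > (0 : ℝ), ∀ h, ‖h‖ ≤ δ →
    |f (x + h) - f x - ⟪p, h⟫ - ⟪A h, h⟫ / 2| ≤ ε * ‖h‖ ^ 2

/-- Taylor expansion from first order expansion of subgradients. -/
lemma taylor_of_subgrad {f : E → ℝ} (hf : ConvexOn ℝ univ f) {x p : E} {A : E →L[ℝ] E}
    (hA : ∀ ε > (0 : ℝ), ∃ δ > (0 : ℝ), ∀ h q, ‖h‖ ≤ δ → IsSubgrad f (x + h) q →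
      ‖q - p - A h‖ ≤ ε * ‖h‖) :
    ∀ ε > (0 : ℝ), ∃ δ > (0 : ℝ), ∀ h, ‖h‖ ≤ δ →
      |f (x + h) - f x - ⟪p, h⟫ - ⟪A h, h⟫ / 2| ≤ ε * ‖h‖ ^ 2 := by
  intro ε hε
  obtain ⟨δ, hδ, hδA⟩ := hA ε hε
  refine ⟨δ, hδ, fun h hh => ?_⟩
  set Q := ⟪A h, h⟫ with hQ
  set b := ε * ‖h‖ ^ 2 with hb
  choose q hq using fun t : ℝ => exists_subgrad hf (x + t • h)
  have hbound : ∀ t : ℝ, 0 ≤ t → t ≤ 1 → |⟪q t, h⟫ - ⟪p, h⟫ - t * Q| ≤ b := by
    intro t ht0 ht1
    have h1 : ‖t • h‖ ≤ δ := by
      rw [norm_smul, Real.norm_of_nonneg ht0]; nlinarith [norm_nonneg h]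
    have h2 := hδA (t • h) (q t) h1 (hq t)
    have h3 : ‖q t - p - A (t • h)‖ ≤ ε * ‖h‖ := h2.trans (by
      rw [norm_smul, Real.norm_of_nonneg ht0]
      exact mul_le_mul_of_nonneg_left (mul_le_of_le_one_left (norm_nonneg h) ht1) hε.le)
    have h4 : ⟪q t, h⟫ - ⟪p, h⟫ - t * Q = ⟪q t - p - A (t • h), h⟫ := by
      rw [inner_sub_left, inner_sub_left, map_smul, real_inner_smul_left]
    rw [h4, hb, sq, ← mul_assoc]
    exact (abs_real_inner_le_norm _ _).trans (mul_le_mul_of_nonneg_right h3 (norm_nonneg h))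
  refine le_of_forall_pos_lt_add fun η hη => ?_
  obtain ⟨N, hN⟩ := exists_nat_gt (|Q| / η)
  have hN0 : (0 : ℝ) < N := lt_of_le_of_lt (by positivity) hN
  have hstep : ∀ k : ℕ, k < N →
      |f (x + (((k + 1 : ℕ) : ℝ) / N) • h) - f (x + ((k : ℝ) / N) • h)
        - (1 / N) * ⟪p, h⟫ - ((2 * (k : ℝ) + 1) / (2 * N ^ 2)) * Q|
        ≤ (1 / N) * b + (1 / (2 * N ^ 2)) * |Q| := by
    intro k hk
    set s : ℝ := (k : ℝ) / N with hs
    set s' : ℝ := ((k + 1 : ℕ) : ℝ) / N with hs'
    have hd : s' - s = 1 / N := by rw [hs, hs']; push_cast; ring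
    have hk1 : (k : ℝ) + 1 ≤ N := by exact_mod_cast hk
    have hs0 : 0 ≤ s := by positivity
    have hs1 : s' ≤ 1 := by rw [hs', div_le_one hN0]; push_cast; linarith
    have hss : s ≤ s' := by
      have : (0 : ℝ) < 1 / N := by positivity
      linarith
    have lo := hq s (x + s' • h)
    have hi := hq s' (x + s • h)
    rw [show x + s' • h - (x + s • h) = (s' - s) • h by rw [sub_smul]; abel,
      real_inner_smul_right, hd] at lo
    rw [show x + s • h - (x + s' • h) = -((s' - s) • h) by rw [sub_smul]; abel,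
      inner_neg_right, real_inner_smul_right, hd] at hi
    have b0 := abs_le.1 (hbound s hs0 (hss.trans hs1))
    have b1 := abs_le.1 (hbound s' (hs0.trans hss) hs1)
    have hN1 : (0 : ℝ) ≤ 1 / N := by positivity
    have m0 := mul_le_mul_of_nonneg_left b0.1 hN1
    have m1 := mul_le_mul_of_nonneg_left b1.2 hN1
    have e0 : (1 / (N : ℝ)) * (s * Q)
        = ((2 * (k : ℝ) + 1) / (2 * N ^ 2)) * Q - (1 / (2 * N ^ 2)) * Q := by
      rw [hs]; field_simp; ring
    have e1 : (1 / (N : ℝ)) * (s' * Q)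
        = ((2 * (k : ℝ) + 1) / (2 * N ^ 2)) * Q + (1 / (2 * N ^ 2)) * Q := by
      rw [hs']; push_cast; field_simp; ring
    have hQ1 : (1 / (2 * (N : ℝ) ^ 2)) * Q ≤ (1 / (2 * N ^ 2)) * |Q| :=
      mul_le_mul_of_nonneg_left (le_abs_self Q) (by positivity)
    have hQ2 : -((1 / (2 * (N : ℝ) ^ 2)) * |Q|) ≤ (1 / (2 * N ^ 2)) * Q := by
      rw [← mul_neg]; exact mul_le_mul_of_nonneg_left (neg_abs_le Q) (by positivity)
    rw [abs_le]
    constructor <;> linarith
  have hsum := (Finset.abs_sum_le_sum_abs _ _).trans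
    (Finset.sum_le_sum fun k hk => hstep k (Finset.mem_range.1 hk))
  have hgauss : ∑ k ∈ Finset.range N, (2 * (k : ℝ) + 1) = (N : ℝ) ^ 2 := by
    have : ∀ n : ℕ, ∑ k ∈ Finset.range n, (2 * (k : ℝ) + 1) = (n : ℝ) ^ 2 := by
      intro n
      induction n with
      | zero => simp
      | succ n ih => rw [Finset.sum_range_succ, ih]; push_cast; ring
    exact this N
  rw [Finset.sum_sub_distrib, Finset.sum_sub_distrib,
    Finset.sum_range_sub (fun k => f (x + ((k : ℝ) / N) • h)) N, Finset.sum_const,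
    Finset.sum_const, Finset.card_range, ← Finset.sum_mul, ← Finset.sum_div, hgauss,
    nsmul_eq_mul, nsmul_eq_mul] at hsum
  have e1 : (N : ℝ) ^ 2 / (2 * N ^ 2) = 1 / 2 := by field_simp
  have e2 : (N : ℝ) * (1 / N * ⟪p, h⟫) = ⟪p, h⟫ := by field_simp
  have e3 : (N : ℝ) * (1 / N * b + 1 / (2 * (N : ℝ) ^ 2) * |Q|) = b + |Q| / N / 2 := by field_simp
  rw [div_self hN0.ne', Nat.cast_zero, zero_div, zero_smul, one_smul, add_zero, e1, e2, e3] at hsum
  have e4 : |Q| / N < η := by
    rw [div_lt_iff₀ hN0]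
    rw [div_lt_iff₀ hη] at hN
    linarith
  rw [show Q / 2 = 1 / 2 * Q by ring]
  have : 0 ≤ |Q| / N := by positivity
  linarith

/-- If the resolvent has an invertible derivative at `z`, then `f` has second order data at its
image. -/
lemma secondOrder_of_prox {f : E → ℝ} (hf : ConvexOn ℝ univ f) {z : E}
    (hd : DifferentiableAt ℝ (prox hf) z) (hdet : (fderiv ℝ (prox hf) z).det ≠ 0) :
    ∃ p A, SecondOrderAt f (prox hf z) p A := by
  set J := prox hf with hJ
  set x := J z with hx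
  set p := z - x with hp
  set B := fderiv ℝ J z with hB
  set e : E ≃ₗ[ℝ] E := B.toLinearMap.equivOfDetNeZero hdet with he
  set Bi : E →L[ℝ] E := LinearMap.toContinuousLinearMap e.symm.toLinearMap with hBi
  set A : E →L[ℝ] E := Bi - ContinuousLinearMap.id ℝ E with hA
  have hBiB : ∀ v, Bi (B v) = v := fun v => e.symm_apply_apply v
  have hBBi : ∀ v, B (Bi v) = v := fun v => e.apply_symm_apply v
  have hder : HasFDerivAt J B z := hd.hasFDerivAt
  have hlin : ∀ c : ℝ, 0 < c → ∃ r > (0 : ℝ), ∀ w, ‖w - z‖ ≤ r →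
      ‖J w - J z - B (w - z)‖ ≤ c * ‖w - z‖ := by
    intro c hc
    have h := hder.isLittleO.def hc
    obtain ⟨r, hr, hr'⟩ := Metric.eventually_nhds_iff.1 h
    refine ⟨r / 2, half_pos hr, fun w hw => hr' ?_⟩
    rw [dist_eq_norm]; linarith
  -- the preimage of `x` is `{z}`
  have huniq : ∀ q, IsSubgrad f x q → q = p := by
    intro q hq
    by_contra hne
    have hv : q - p ≠ 0 := sub_ne_zero.2 hne
    have hker : B (q - p) = 0 := by
      refine norm_le_zero_iff.1 (le_of_forall_pos_lt_add fun η hη => ?_)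
      obtain ⟨r, hr, hr'⟩ := hlin (η / (2 * ‖q - p‖)) (by positivity)
      set t : ℝ := min 1 (r / ‖q - p‖) with ht
      have ht0 : 0 < t := lt_min one_pos (by positivity)
      have hts : IsSubgrad f x ((1 - t) • p + t • q) := fun y => by
        have h1 := mul_le_mul_of_nonneg_left (hq y) ht0.le
        have h2 := mul_le_mul_of_nonneg_left (prox_spec hf z y)
          (show 0 ≤ 1 - t by linarith [min_le_left 1 (r / ‖q - p‖)])
        rw [inner_add_left, real_inner_smul_left, real_inner_smul_left]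
        simp only [← hJ, ← hx, ← hp] at h2
        nlinarith
      have hJw := eq_prox_of_subgrad hf hts
      rw [show x + ((1 - t) • p + t • q) = z + t • (q - p) by
        rw [hp]; module, ← hJ] at hJw
      have h3 := hr' (z + t • (q - p)) (by
        rw [add_sub_cancel_left, norm_smul, Real.norm_of_nonneg ht0.le]
        exact (le_div_iff₀ (norm_pos_iff.2 hv)).1 (min_le_right _ _))
      rw [hJw, ← hx, add_sub_cancel_left, map_smul, sub_self, zero_sub, norm_neg, norm_smul,
        norm_smul, Real.norm_of_nonneg ht0.le] at h3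
      have h4 : η / (2 * ‖q - p‖) * (t * ‖q - p‖) = t * (η / 2) := by
        have := norm_ne_zero_iff.2 hv
        field_simp
      rw [h4] at h3
      have := le_of_mul_le_mul_left h3 ht0
      linarith
    exact hv (by rw [← hBiB (q - p), hker, map_zero])
  -- nearby preimages are near `z`
  have hnear : ∀ r > (0 : ℝ), ∃ δ > (0 : ℝ), ∀ h q, ‖h‖ ≤ δ → IsSubgrad f (x + h) q →
      ‖x + h + q - z‖ ≤ r := by
    intro r hr
    by_contra hcon
    push Not at hcon
    choose h q hh hq hfar using fun n : ℕ => hcon (1 / (n + 1)) (by positivity)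
    obtain ⟨K, hK⟩ : ∃ K : ℝ, ∀ y, ‖y - x‖ ≤ 3 → |f y| ≤ K := by
      obtain ⟨K, hK⟩ := (isCompact_closedBall x 3).exists_bound_of_continuousOn
        hf.locallyLipschitz.continuous.continuousOn
      exact ⟨K, fun y hy => hK y (by rwa [mem_closedBall, dist_eq_norm])⟩
    have hh1 : ∀ n, ‖h n‖ ≤ 1 := fun n => (hh n).trans (by
      rw [div_le_one (by positivity)]; linarith [Nat.cast_nonneg (α := ℝ) n])
    have hqb : ∀ n, ‖q n‖ ≤ 2 * |K| := by
      intro n
      rcases eq_or_ne (q n) 0 with h0 | h0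
      · rw [h0, norm_zero]; positivity
      have := hq n (x + h n + ‖q n‖⁻¹ • q n)
      rw [add_sub_cancel_left, real_inner_smul_right, real_inner_self_eq_norm_sq] at this
      have e : ‖q n‖⁻¹ * ‖q n‖ ^ 2 = ‖q n‖ := by
        have := norm_ne_zero_iff.2 h0
        field_simp
      rw [e] at this
      have a1 := hK (x + h n) (by rw [add_sub_cancel_left]; linarith [hh1 n])
      have a2 := hK (x + h n + ‖q n‖⁻¹ • q n) (by
        rw [add_assoc, add_sub_cancel_left]
        refine (norm_add_le _ _).trans ?_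
        rw [norm_smul, norm_inv, norm_norm, inv_mul_cancel₀ (norm_ne_zero_iff.2 h0)]
        linarith [hh1 n])
      linarith [(abs_le.1 a1).1, (abs_le.1 a2).2, le_abs_self K]
    obtain ⟨w, -, φ, hφ, hlim⟩ := (isCompact_closedBall x (1 + 2 * |K|)).tendsto_subseq
      (x := fun n => x + h n + q n) (fun n => by
        rw [mem_closedBall, dist_eq_norm, add_assoc, add_sub_cancel_left]
        exact (norm_add_le _ _).trans (add_le_add (hh1 n) (hqb n)))
    have hh0 : Tendsto (fun n => h (φ n)) atTop (𝓝 0) :=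
      squeeze_zero_norm (fun n => hh (φ n))
        (tendsto_one_div_add_atTop_nhds_zero_nat.comp hφ.tendsto_atTop)
    have hJw : J w = x := by
      have h1 : Tendsto (fun n => J (x + h (φ n) + q (φ n))) atTop (𝓝 (J w)) :=
        ((lipschitz_prox hf).continuous.tendsto w).comp hlim
      have h2 : Tendsto (fun n => J (x + h (φ n) + q (φ n))) atTop (𝓝 (x + 0)) :=
        (tendsto_const_nhds.add hh0).congr fun n => (eq_prox_of_subgrad hf (hq (φ n))).symm
      rw [add_zero] at h2
      exact tendsto_nhds_unique h1 h2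
    have hwz : w = z := by
      have := huniq (w - x) (by simpa [← hJ, hJw] using prox_spec hf w)
      exact sub_left_inj.1 this
    rw [hwz] at hlim
    have := le_of_tendsto_of_tendsto' tendsto_const_nhds
      ((continuous_norm.tendsto _).comp (hlim.sub (tendsto_const_nhds (x := z))))
      (fun n => (hfar (φ n)).le)
    simp only [sub_self, norm_zero] at this
    linarith
  have hfirst : ∀ ε > (0 : ℝ), ∃ δ > (0 : ℝ), ∀ h q, ‖h‖ ≤ δ → IsSubgrad f (x + h) q →
      ‖q - p - A h‖ ≤ ε * ‖h‖ := by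
    intro ε hε
    set M := ‖Bi‖ + 1 with hM
    have hM0 : 0 < M := by positivity
    set c := min (1 / (2 * M)) (ε / (2 * M ^ 2)) with hc
    obtain ⟨r, hr, hr'⟩ := hlin c (lt_min (by positivity) (by positivity))
    obtain ⟨δ, hδ, hδ'⟩ := hnear r hr
    refine ⟨δ, hδ, fun h q hh hq => ?_⟩
    set v := x + h + q - z with hv
    have h1 := hr' (x + h + q) (hδ' h q hh hq)
    rw [show J (x + h + q) = x + h from eq_prox_of_subgrad hf hq, ← hx, add_sub_cancel_left,
      ← hv] at h1
    have h2 : q - p - A h = v - Bi h := by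
      simp only [hA, sub_apply, ContinuousLinearMap.id_apply, hp, hv]
      abel
    have h3 : ‖v - Bi h‖ ≤ M * (c * ‖v‖) := by
      have e : v - Bi h = -(Bi (h - B v)) := by rw [map_sub, hBiB, neg_sub]
      rw [e, norm_neg]
      refine (Bi.le_opNorm _).trans (mul_le_mul (by linarith) h1 (norm_nonneg _) hM0.le)
    have h4 : ‖v‖ ≤ 2 * M * ‖h‖ := by
      have a := norm_le_norm_add_norm_sub' v (Bi h)
      have b := Bi.le_opNorm h
      have hcM : M * c ≤ 1 / 2 := by
        calc M * c ≤ M * (1 / (2 * M)) := mul_le_mul_of_nonneg_left (min_le_left _ _) hM0.le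
          _ = 1 / 2 := by field_simp
      have := mul_le_mul_of_nonneg_right hcM (norm_nonneg v)
      nlinarith [norm_nonneg h, norm_nonneg v]
    rw [h2]
    refine h3.trans ?_
    calc M * (c * ‖v‖) ≤ M * (ε / (2 * M ^ 2) * (2 * M * ‖h‖)) :=
          mul_le_mul_of_nonneg_left (mul_le_mul (min_le_right _ _) h4 (norm_nonneg _)
            (by positivity)) hM0.le
      _ = ε * ‖h‖ := by field_simp
  have hpsd : ∀ h, 0 ≤ ⟪A h, h⟫ := by
    intro h
    refine le_of_forall_pos_lt_add fun η hη => ?_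
    obtain ⟨δ, hδ, hδ'⟩ := hfirst (η / (2 * (‖h‖ ^ 2 + 1))) (by positivity)
    set t := δ / (‖h‖ + 1) with ht
    have ht0 : 0 < t := by positivity
    obtain ⟨q, hq⟩ := exists_subgrad hf (x + t • h)
    have hth : ‖t • h‖ ≤ δ := by
      rw [norm_smul, Real.norm_of_nonneg ht0.le, ht, div_mul_eq_mul_div,
        div_le_iff₀ (by positivity)]
      nlinarith [norm_nonneg h]
    have h1 := hq.mono (prox_spec hf z)
    rw [← hJ, ← hx, ← hp, add_sub_cancel_left, real_inner_smul_right] at h1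
    have h2 := nonneg_of_mul_nonneg_right h1 ht0
    have h3 : ⟪q - p - A (t • h), h⟫ ≤ η / (2 * (‖h‖ ^ 2 + 1)) * ‖t • h‖ * ‖h‖ :=
      (real_inner_le_norm _ _).trans
        (mul_le_mul_of_nonneg_right (hδ' (t • h) q hth hq) (norm_nonneg h))
    rw [inner_sub_left, map_smul, real_inner_smul_left, norm_smul,
      Real.norm_of_nonneg ht0.le] at h3
    have h4 : η / (2 * (‖h‖ ^ 2 + 1)) * (t * ‖h‖) * ‖h‖ < t * η := by
      rw [div_mul_eq_mul_div, div_mul_eq_mul_div, div_lt_iff₀ (by positivity)]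
      have := mul_pos ht0 hη
      nlinarith [sq_nonneg ‖h‖]
    have h5 : 0 < t * (⟪A h, h⟫ + η) := by nlinarith
    exact pos_of_mul_pos_right h5 ht0.le
  have hsym : ∀ h k, ⟪A h, k⟫ = ⟪h, A k⟫ := by
    -- cyclic monotonicity of subgradients
    intro h k
    suffices H : ∀ h k : E, ⟪A h, k⟫ ≤ ⟪h, A k⟫ by
      refine le_antisymm (H h k) ?_
      have := H k h
      rwa [real_inner_comm, real_inner_comm (A h) k] at this
    suffices H0 : ∀ h k : E, ⟪A h, k⟫ - ⟪h, A k⟫ ≤ ⟪A k, k⟫ by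
      intro h k
      refine le_of_forall_pos_lt_add fun η hη => ?_
      set s : ℝ := η / (⟪A k, k⟫ + 1) with hs
      have hk0 := hpsd k
      have hs0 : 0 < s := by positivity
      have := H0 h (s • k)
      rw [map_smul, real_inner_smul_right, real_inner_smul_right, real_inner_smul_left,
        real_inner_smul_right, ← mul_sub] at this
      have h2 := le_of_mul_le_mul_left this hs0
      have h3 : s * ⟪A k, k⟫ < η := by
        rw [hs, div_mul_eq_mul_div, div_lt_iff₀ (by positivity)]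
        nlinarith
      linarith
    intro h k
    have hT := taylor_of_subgrad hf hfirst
    refine le_of_forall_pos_lt_add fun η hη => ?_
    set C := (‖h‖ + ‖k‖ + 1) ^ 2 with hC
    have hC0 : 0 < C := by positivity
    obtain ⟨δ₁, hδ₁, hT'⟩ := hT (η / (8 * C)) (by positivity)
    obtain ⟨δ₂, hδ₂, hF⟩ := hfirst (η / (8 * C)) (by positivity)
    set t := min δ₁ δ₂ / (‖h‖ + ‖k‖ + 1) with ht
    have ht0 : 0 < t := div_pos (lt_min hδ₁ hδ₂) (by positivity)
    have htn : ∀ v : E, ‖v‖ ≤ ‖h‖ + ‖k‖ + 1 → ‖t • v‖ ≤ min δ₁ δ₂ := fun v hv => by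
      rw [norm_smul, Real.norm_of_nonneg ht0.le, ht, div_mul_eq_mul_div,
        div_le_iff₀ (by positivity)]
      exact mul_le_mul_of_nonneg_left hv (lt_min hδ₁ hδ₂).le
    obtain ⟨q, hq⟩ := exists_subgrad hf (x + t • h)
    have hn := norm_nonneg h
    have hn' := norm_nonneg k
    have hhk : ‖h + k‖ ≤ ‖h‖ + ‖k‖ + 1 := (norm_add_le _ _).trans (by linarith)
    have a1 := hT' (t • (h + k)) ((htn _ hhk).trans (min_le_left _ _))
    have a2 := hT' (t • h) ((htn h (by linarith)).trans (min_le_left _ _))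
    have a3 := hF (t • h) q ((htn h (by linarith)).trans (min_le_right _ _)) hq
    have a4 := hq (x + t • (h + k))
    rw [show x + t • (h + k) - (x + t • h) = t • k by rw [smul_add]; abel] at a4
    have a5 : ⟪q - p - A (t • h), t • k⟫ ≥ -(η / (8 * C) * ‖t • h‖ * ‖t • k‖) := by
      have := (abs_le.1 ((abs_real_inner_le_norm _ _).trans
        (mul_le_mul_of_nonneg_right a3 (norm_nonneg (t • k))))).1
      linarith
    simp only [map_smul, map_add, inner_sub_left, inner_add_left, inner_add_right,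
      real_inner_smul_left, real_inner_smul_right, norm_smul, Real.norm_of_nonneg ht0.le]
      at a1 a2 a4 a5
    have hsq1 : ‖h + k‖ ^ 2 ≤ C := pow_le_pow_left₀ (norm_nonneg _) hhk 2
    have hsq2 : ‖h‖ ^ 2 ≤ C := pow_le_pow_left₀ hn (by linarith) 2
    have hsq3 : ‖h‖ * ‖k‖ ≤ C := by rw [hC]; nlinarith
    have hb : ∀ s : ℝ, s ≤ C → η / (8 * C) * (t ^ 2 * s) ≤ t ^ 2 * (η / 8) := fun s hs => by
      calc η / (8 * C) * (t ^ 2 * s) ≤ η / (8 * C) * (t ^ 2 * C) :=
            mul_le_mul_of_nonneg_left (mul_le_mul_of_nonneg_left hs (sq_nonneg t)) (by positivity)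
        _ = t ^ 2 * (η / 8) := by field_simp
    have b1 := hb _ hsq1
    have b2 := hb _ hsq2
    have b3 := hb _ hsq3
    have c1 := abs_le.1 a1
    have c2 := abs_le.1 a2
    have hkk := hpsd k
    have key : t ^ 2 * (⟪A h, k⟫ - ⟪h, A k⟫ - η) < t ^ 2 * ⟪A k, k⟫ := by
      have := mul_pos (pow_pos ht0 2) hη
      rw [real_inner_comm (A k) h]
      nlinarith
    have := lt_of_mul_lt_mul_left key (sq_nonneg t)
    linarith
  exact ⟨p, A, prox_spec hf z, huniq, hsym, hpsd, hfirst, taylor_of_subgrad hf hfirst⟩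

variable [MeasurableSpace E] [BorelSpace E]

/-- A Lipschitz self map sends null sets to null sets. -/
lemma lipschitz_image_null (μ : Measure E) [μ.IsAddHaarMeasure] {K : ℝ≥0} {g : E → E}
    (hg : LipschitzWith K g) {s : Set E} (hs : μ s = 0) : μ (g '' s) = 0 := by
  set ν : Measure E := μH[finrank ℝ E] with hν
  have h1 := Measure.isAddLeftInvariant_eq_smul μ ν
  have h2 := Measure.isAddLeftInvariant_eq_smul ν μ
  have hns : ν s = 0 := by rw [h2]; simp [hs]
  have h3 : ν (g '' s) = 0 := by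
    have := hg.hausdorffMeasure_image_le (d := (finrank ℝ E : ℝ)) (by positivity) s
    rw [← hν, hns, mul_zero] at this
    exact nonpos_iff_eq_zero.1 this
  rw [h1]; simp [h3]

/-- **Alexandrov's theorem.** A convex function on a finite dimensional inner product space has
second order data at almost every point. -/
theorem alexandrov (μ : Measure E) [μ.IsAddHaarMeasure] {f : E → ℝ} (hf : ConvexOn ℝ univ f) :
    ∀ᵐ x ∂μ, ∃ p A, SecondOrderAt f x p A := by
  set J := prox hf with hJ
  set N : Set E := {z | ¬ DifferentiableAt ℝ J z} with hN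
  set S : Set E := {z | DifferentiableAt ℝ J z ∧ (fderiv ℝ J z).det = 0} with hS
  have h1 : μ (J '' N) = 0 :=
    lipschitz_image_null μ (lipschitz_prox hf) (ae_iff.1 (lipschitz_prox hf).ae_differentiableAt)
  have h2 : μ (J '' S) = 0 :=
    addHaar_image_eq_zero_of_det_fderivWithin_eq_zero μ
      (fun z hz => hz.1.hasFDerivAt.hasFDerivWithinAt) (fun z hz => hz.2)
  rw [ae_iff]
  refine measure_mono_null (fun x hx => ?_) (measure_union_null h1 h2)
  obtain ⟨q, hq⟩ := exists_subgrad hf x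
  have hJx : J (x + q) = x := eq_prox_of_subgrad hf hq
  by_cases hd : DifferentiableAt ℝ J (x + q)
  · by_cases hdet : (fderiv ℝ J (x + q)).det = 0
    · exact Or.inr ⟨x + q, ⟨hd, hdet⟩, hJx⟩
    · exfalso
      obtain ⟨p, A, h⟩ := secondOrder_of_prox hf hd hdet
      rw [show prox hf (x + q) = x from hJx] at h
      exact hx ⟨p, A, h⟩
  · exact Or.inl ⟨x + q, hd, hJx⟩

end Vale.Agent.Common.Alexandrov
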