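import Mathlib

/-! The Fejér kernel used in the Wiener–Ikehara theorem. -/

namespace Vale.Agent.Common.PNT

open Complex Set MeasureTheory Filter Topology
open scoped Real

/-- Fourier transform of the triangle function on `[-1, 1]`. -/
noncomputable def fejerC (x : ℝ) : ℂ :=
  ∫ t in (-1 : ℝ)..1, ((1 - |t| : ℝ) : ℂ) * Complex.exp ((t * x : ℝ) * I)

/-- The Fejér kernel. -/
noncomputable def fejer (x : ℝ) : ℝ := (fejerC x).re

theorem continuous_fejerC : Continuous fejerC :=
  intervalIntegral.continuous_parametric_intervalIntegral_of_continuous' (by fun_prop) _ _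

theorem continuous_fejer : Continuous fejer := Complex.continuous_re.comp continuous_fejerC

theorem fejerC_of_ne {x : ℝ} (hx : x ≠ 0) :
    fejerC x = ((2 * (1 - Real.cos x) / x ^ 2 : ℝ) : ℂ) := by
  have hxC : (x : ℂ) ≠ 0 := by exact_mod_cast hx
  have hxI : (x : ℂ) * I ≠ 0 := mul_ne_zero hxC I_ne_zero
  set e : ℝ → ℂ := fun t => Complex.exp ((t * x : ℝ) * I) with he
  have hde : ∀ t, HasDerivAt e (e t * (x * I)) t := by
    intro t
    have : HasDerivAt (fun t : ℝ => ((t * x : ℝ) : ℂ) * I) ((x : ℂ) * I) t := by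
      simpa using (((hasDerivAt_id t).mul_const x).ofReal_comp).mul_const I
    exact this.cexp
  have hint : ∀ a b : ℝ, IntervalIntegrable (fun t => ((1 - |t| : ℝ) : ℂ) * e t) volume a b :=
    fun a b => Continuous.intervalIntegrable (by rw [he]; fun_prop) _ _
  have h1 : ∫ t in (0 : ℝ)..1, ((1 - |t| : ℝ) : ℂ) * e t =
      (((0 : ℝ) : ℂ) * (e 1 / (x * I)) + e 1 / (x * I) ^ 2) -
        ((1 : ℝ) * (e 0 / (x * I)) + e 0 / (x * I) ^ 2) := by
    have hd : ∀ t : ℝ, HasDerivAt
        (fun t : ℝ => ((1 - t : ℝ) : ℂ) * (e t / (x * I)) + e t / (x * I) ^ 2)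
        (((1 - t : ℝ) : ℂ) * e t) t := by
      intro t
      refine ((((hasDerivAt_id' t).const_sub 1).ofReal_comp.mul ((hde t).div_const _)).add
        ((hde t).div_const _)).congr_deriv ?_
      field_simp
      push_cast
      ring
    have := intervalIntegral.integral_eq_sub_of_hasDerivAt (a := (0 : ℝ)) (b := 1)
      (fun t _ => hd t) (Continuous.intervalIntegrable (by rw [he]; fun_prop) _ _)
    simp only [sub_self, sub_zero] at this
    rw [← this]
    refine intervalIntegral.integral_congr fun t ht => ?_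
    rw [uIcc_of_le zero_le_one] at ht
    simp [abs_of_nonneg ht.1]
  have h2 : ∫ t in (-1 : ℝ)..0, ((1 - |t| : ℝ) : ℂ) * e t =
      (((1 : ℝ) : ℂ) * (e 0 / (x * I)) - e 0 / (x * I) ^ 2) -
        ((0 : ℝ) * (e (-1) / (x * I)) - e (-1) / (x * I) ^ 2) := by
    have hd : ∀ t : ℝ, HasDerivAt
        (fun t : ℝ => ((1 + t : ℝ) : ℂ) * (e t / (x * I)) - e t / (x * I) ^ 2)
        (((1 + t : ℝ) : ℂ) * e t) t := by
      intro t
      refine ((((hasDerivAt_id' t).const_add 1).ofReal_comp.mul ((hde t).div_const _)).sub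
        ((hde t).div_const _)).congr_deriv ?_
      field_simp
      push_cast
      ring
    have := intervalIntegral.integral_eq_sub_of_hasDerivAt (a := (-1 : ℝ)) (b := 0)
      (fun t _ => hd t) (Continuous.intervalIntegrable (by rw [he]; fun_prop) _ _)
    simp only [add_neg_cancel, add_zero] at this
    rw [← this]
    refine intervalIntegral.integral_congr fun t ht => ?_
    rw [uIcc_of_le (by norm_num)] at ht
    simp [abs_of_nonpos ht.2]
  show ∫ t in (-1 : ℝ)..1, ((1 - |t| : ℝ) : ℂ) * e t = _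
  rw [← intervalIntegral.integral_add_adjacent_intervals (b := 0) (hint _ _) (hint _ _), h1, h2]
  simp only [he, one_mul, neg_mul, zero_mul, Complex.ofReal_zero, Complex.exp_zero,
    Complex.ofReal_one, Complex.ofReal_neg]
  push_cast
  rw [Complex.cos]
  field_simp
  simp [Complex.I_sq]
  ring

theorem fejerC_eq (x : ℝ) : fejerC x = (fejer x : ℂ) := by
  rcases eq_or_ne x 0 with rfl | hx
  · have : fejerC 0 = ((∫ t in (-1 : ℝ)..1, (1 - |t|) : ℝ) : ℂ) := by
      rw [fejerC, ← intervalIntegral.integral_ofReal]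
      simp
    rw [fejer, this, Complex.ofReal_re]
  · rw [fejer, fejerC_of_ne hx, Complex.ofReal_re]

theorem fejer_nonneg (x : ℝ) : 0 ≤ fejer x := by
  rcases eq_or_ne x 0 with rfl | hx
  · have : fejerC 0 = ((∫ t in (-1 : ℝ)..1, (1 - |t|) : ℝ) : ℂ) := by
      rw [fejerC, ← intervalIntegral.integral_ofReal]
      simp
    rw [fejer, this, Complex.ofReal_re]
    refine intervalIntegral.integral_nonneg (by norm_num) fun t ht => ?_
    have := abs_le.2 ht
    linarith
  · rw [fejer, fejerC_of_ne hx, Complex.ofReal_re]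
    have := Real.cos_le_one x
    have : 0 ≤ 1 - Real.cos x := by linarith
    positivity

theorem fejer_pos_zero : 0 < fejer 0 := by
  have : fejerC 0 = ((∫ t in (-1 : ℝ)..1, (1 - |t|) : ℝ) : ℂ) := by
    rw [fejerC, ← intervalIntegral.integral_ofReal]
    simp
  rw [fejer, this, Complex.ofReal_re]
  refine intervalIntegral.integral_pos (by norm_num) (by fun_prop) (fun t ht => ?_)
    ⟨0, by norm_num, by norm_num⟩
  have := abs_le.2 ⟨ht.1.le, ht.2⟩
  linarith

theorem fejer_le (x : ℝ) : fejer x ≤ 10 * (1 + x ^ 2)⁻¹ := by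
  have h2 : fejer x ≤ 2 := by
    rw [fejer]
    refine (Complex.re_le_norm _).trans ?_
    refine (intervalIntegral.norm_integral_le_of_norm_le_const (C := 1) fun t ht => ?_).trans
      (by norm_num)
    rw [uIoc_of_le (by norm_num)] at ht
    have hab : |t| ≤ 1 := abs_le.2 ⟨ht.1.le, ht.2⟩
    rw [norm_mul, Complex.norm_real, Complex.norm_exp_ofReal_mul_I, mul_one, Real.norm_eq_abs,
      abs_of_nonneg (by linarith)]
    linarith [abs_nonneg t]
  rw [← div_eq_mul_inv, le_div_iff₀ (by positivity)]
  have h3 : fejer x * x ^ 2 ≤ 4 := by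
    rcases eq_or_ne x 0 with rfl | hx
    · simp
    · rw [fejer, fejerC_of_ne hx, Complex.ofReal_re, div_mul_cancel₀ _ (by positivity)]
      linarith [Real.neg_one_le_cos x]
  nlinarith

theorem integrable_fejer : Integrable fejer := by
  refine (integrable_inv_one_add_sq.const_mul 10).mono' continuous_fejer.aestronglyMeasurable
    (Eventually.of_forall fun x => ?_)
  rw [Real.norm_eq_abs, abs_of_nonneg (fejer_nonneg x)]
  exact fejer_le x

theorem integral_fejer_pos : 0 < ∫ x, fejer x := by
  refine (integral_pos_iff_support_of_nonneg fejer_nonneg integrable_fejer).2 ?_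
  exact (continuous_fejer.isOpen_support).measure_pos volume ⟨0, fejer_pos_zero.ne'⟩

theorem tendsto_window :
    Tendsto (fun R : ℝ => ∫ y in Icc (-R) R, fejer y) atTop (𝓝 (∫ x, fejer x)) := by
  refine (aecover_Icc (tendsto_neg_atTop_atBot) tendsto_id).integral_tendsto_of_countably_generated
    integrable_fejer

end Vale.Agent.Common.PNT
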