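import Vale.Agent.Common.WienerIkehara

/-!
The prime number theorem and its form for residue classes.

* `chebyshev_residue`: sums of the von Mangoldt function over a residue class.
* `tendsto_psi_div`, `tendsto_theta_div`: `ψ x / x → 1`, `θ x / x → 1`.
* `prime_number_theorem`: `π ⌊x⌋₊ * log x / x → 1`, with variants.
-/

namespace Vale.Agent.Common.PNT

open Set Filter Topology ArithmeticFunction Chebyshev Asymptotics
open scoped Nat.Prime

theorem chebyshev_residue {q : ℕ} [NeZero q] {a : ZMod q} (ha : IsUnit a) :
    Tendsto (fun x : ℝ => summ (vonMangoldt.residueClass a) x / x) atTop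
      (𝓝 ((q.totient : ℝ)⁻¹)) := by
  refine wiener_ikehara (fun n => vonMangoldt.residueClass_nonneg a n)
    (C := Real.log 4 + 4) (fun x hx => ?_)
    (vonMangoldt.continuousOn_LFunctionResidueClassAux a) ?_
  · refine le_trans ?_ (psi_le_const_mul_self hx)
    rw [summ, psi]
    refine le_of_le_of_eq (Finset.sum_le_sum fun n _ => vonMangoldt.residueClass_le a n) ?_
    rfl
  · intro s hs
    simp [vonMangoldt.eqOn_LFunctionResidueClassAux ha hs]

theorem tendsto_psi_div : Tendsto (fun x : ℝ => ψ x / x) atTop (𝓝 1) := by
  have h := chebyshev_residue (q := 1) (a := 0) (isUnit_of_subsingleton _)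
  simp only [Nat.totient_one, Nat.cast_one, inv_one] at h
  refine h.congr fun x => ?_
  congr 1
  rw [summ, psi]
  refine Finset.sum_congr rfl fun n _ => ?_
  simp [vonMangoldt.residueClass, Subsingleton.elim (n : ZMod 1) 0]

theorem tendsto_theta_div : Tendsto (fun x : ℝ => θ x / x) atTop (𝓝 1) := by
  have h : (fun x : ℝ => ψ x - θ x) =o[atTop] fun x => x := by
    refine IsBigO.trans_isLittleO (g := Real.sqrt) isBigO_psi_sub_theta_sqrt ?_
    refine isLittleO_iff_tendsto' ?_ |>.mpr ?_
    · filter_upwards [eventually_gt_atTop 0] with x hx h0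
      exact absurd h0 hx.ne'
    · refine (tendsto_inv_atTop_zero.comp Real.tendsto_sqrt_atTop).congr' ?_
      filter_upwards [eventually_ge_atTop 0] with x hx
      simp [Real.sqrt_div_self]
  have := tendsto_psi_div.sub h.tendsto_div_nhds_zero
  simpa [← sub_div] using this

/-- **The prime number theorem**, real variable: `π(x) log x / x → 1`. -/
theorem prime_number_theorem :
    Tendsto (fun x : ℝ => (π ⌊x⌋₊ : ℝ) * Real.log x / x) atTop (𝓝 1) := by
  have h : (fun x : ℝ => (π ⌊x⌋₊ : ℝ) - θ x / Real.log x) =o[atTop]
      fun x => x / Real.log x := by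
    refine primeCounting_sub_theta_div_log_isBigO.trans_isLittleO ?_
    refine isLittleO_iff_tendsto' ?_ |>.mpr ?_
    · filter_upwards [eventually_gt_atTop 1] with x hx h0
      rcases div_eq_zero_iff.1 h0 with h | h
      · linarith
      · exact absurd h (Real.log_pos hx).ne'
    · refine Tendsto.congr' ?_ Real.tendsto_log_atTop.inv_tendsto_atTop
      filter_upwards [eventually_gt_atTop 1] with x hx
      have := (Real.log_pos hx).ne'
      have : x ≠ 0 := by linarith
      simp only [Pi.inv_apply]
      field_simp
  have h' := tendsto_theta_div.add h.tendsto_div_nhds_zero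
  rw [add_zero] at h'
  refine h'.congr' ?_
  filter_upwards [eventually_gt_atTop 1] with x hx
  have := (Real.log_pos hx).ne'
  have : x ≠ 0 := by linarith
  field_simp
  ring

/-- The prime number theorem for natural numbers. -/
theorem prime_number_theorem_nat :
    Tendsto (fun n : ℕ => (π n : ℝ) * Real.log n / n) atTop (𝓝 1) := by
  simpa [Function.comp_def] using prime_number_theorem.comp tendsto_natCast_atTop_atTop

theorem isEquivalent_primeCounting :
    IsEquivalent atTop (fun x : ℝ => (π ⌊x⌋₊ : ℝ)) fun x => x / Real.log x := by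
  refine isEquivalent_of_tendsto_one (prime_number_theorem.congr' ?_)
  filter_upwards with x
  simp only [Pi.div_apply, div_div_eq_mul_div]

theorem isEquivalent_psi : IsEquivalent atTop ψ fun x => x :=
  isEquivalent_of_tendsto_one tendsto_psi_div

theorem isEquivalent_theta : IsEquivalent atTop θ fun x => x :=
  isEquivalent_of_tendsto_one tendsto_theta_div

/-- `π(cx)/π(x) → c`. -/
theorem tendsto_primeCounting_scale {c : ℝ} (hc : 0 < c) :
    Tendsto (fun x : ℝ => (π ⌊c * x⌋₊ : ℝ) / π ⌊x⌋₊) atTop (𝓝 c) := by
  have h1 := prime_number_theorem.comp (tendsto_id.const_mul_atTop hc)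
  have h2 : Tendsto (fun x : ℝ => Real.log x / Real.log (c * x)) atTop (𝓝 1) := by
    have h3 : Tendsto (fun x : ℝ => (Real.log c / Real.log x + 1)⁻¹) atTop (𝓝 1) := by
      simpa using ((tendsto_const_nhds.div_atTop Real.tendsto_log_atTop).add_const (1 : ℝ)).inv₀
        (by norm_num)
    refine h3.congr' ?_
    filter_upwards [eventually_gt_atTop 1] with x hx
    rw [Real.log_mul hc.ne' (by linarith)]
    have := (Real.log_pos hx).ne'
    field_simp
  have h := ((h1.div prime_number_theorem one_ne_zero).mul h2).const_mul c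
  simp only [div_one, mul_one, id, Function.comp_apply, Pi.div_apply] at h
  refine h.congr' ?_
  filter_upwards [eventually_gt_atTop 1, eventually_gt_atTop (1 / c),
    eventually_ge_atTop 2] with x hx hx' hx2
  rw [div_lt_iff₀ hc] at hx'
  have := (Real.log_pos hx).ne'
  have := (Real.log_pos (show 1 < c * x by linarith)).ne'
  have : x ≠ 0 := by linarith
  have : (π ⌊x⌋₊ : ℝ) ≠ 0 := by
    have : 0 < π ⌊x⌋₊ := by
      rw [Nat.primeCounting, Nat.primeCounting']
      exact Nat.pos_of_ne_zero fun h0 => by
        have := Nat.count_monotone Nat.Prime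
          (show 3 ≤ ⌊x⌋₊ + 1 by have := (Nat.le_floor_iff (by linarith)).2 (show ((2 : ℕ) : ℝ) ≤ x by simpa using hx2); omega)
        rw [h0] at this
        simp [Nat.count_succ, Nat.prime_two] at this
    exact_mod_cast this.ne'
  field_simp

end Vale.Agent.Common.PNT
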