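import Vale.Agent.Common.Fejer

/-! The Wiener–Ikehara theorem for nonnegative coefficients with a Chebyshev bound. -/

namespace Vale.Agent.Common.PNT

open Complex Set MeasureTheory Filter Topology
open scoped Real

/-- Summatory function. -/
noncomputable def summ (f : ℕ → ℝ) (x : ℝ) : ℝ := ∑ k ∈ Finset.Icc 1 ⌊x⌋₊, f k

/-- Normalised summatory function on the logarithmic scale. -/
noncomputable def nrm (f : ℕ → ℝ) (u : ℝ) : ℝ := summ f (Real.exp u) * Real.exp (-u)

variable {f : ℕ → ℝ}

theorem summ_mono (hf : ∀ n, 0 ≤ f n) : Monotone (summ f) := fun _ _ h =>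
  Finset.sum_le_sum_of_subset_of_nonneg (Finset.Icc_subset_Icc le_rfl (Nat.floor_mono h))
    (fun n _ _ => hf n)

theorem summ_nonneg (hf : ∀ n, 0 ≤ f n) (x : ℝ) : 0 ≤ summ f x :=
  Finset.sum_nonneg fun n _ => hf n

theorem measurable_nrm (hf : ∀ n, 0 ≤ f n) : Measurable (nrm f) :=
  (((summ_mono hf).measurable).comp Real.measurable_exp).mul (by fun_prop)

theorem nrm_nonneg (hf : ∀ n, 0 ≤ f n) (u : ℝ) : 0 ≤ nrm f u :=
  mul_nonneg (summ_nonneg hf _) (Real.exp_pos _).le

theorem nrm_le {C : ℝ} (hC : ∀ x : ℝ, 0 ≤ x → summ f x ≤ C * x) (u : ℝ) : nrm f u ≤ C := by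
  calc nrm f u ≤ C * Real.exp u * Real.exp (-u) :=
        mul_le_mul_of_nonneg_right (hC _ (Real.exp_pos u).le) (Real.exp_pos _).le
    _ = C := by rw [mul_assoc, ← Real.exp_add, add_neg_cancel, Real.exp_zero, mul_one]

theorem nrm_of_neg {u : ℝ} (hu : u < 0) : nrm f u = 0 := by
  have h : ⌊Real.exp u⌋₊ = 0 := Nat.floor_eq_zero.2 (Real.exp_lt_one_iff.2 hu)
  simp [nrm, summ, h]

/-- The substitution `t = exp u` in the Mellin representation of a Dirichlet series. -/
theorem laplace_summ (f : ℕ → ℝ) (s : ℂ) :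
    ∫ t in Ioi (1 : ℝ), (∑ k ∈ Finset.Icc 1 ⌊t⌋₊, (f k : ℂ)) * (t : ℂ) ^ (-(s + 1)) =
      ∫ u in Ioi (0 : ℝ), (nrm f u : ℂ) * Complex.exp (-(s - 1) * u) := by
  have himg : Real.exp '' Ioi 0 = Ioi 1 := by
    ext t
    constructor
    · rintro ⟨u, hu, rfl⟩
      exact Real.one_lt_exp_iff.2 hu
    · intro ht
      exact ⟨Real.log t, Real.log_pos ht, Real.exp_log (zero_lt_one.trans ht)⟩
  rw [← himg, integral_image_eq_integral_abs_deriv_smul measurableSet_Ioi
    (fun u _ => (Real.hasDerivAt_exp u).hasDerivWithinAt) Real.exp_injective.injOn]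
  refine setIntegral_congr_fun measurableSet_Ioi fun u _ => ?_
  have hne : (Real.exp u : ℂ) ≠ 0 := by exact_mod_cast (Real.exp_pos u).ne'
  rw [Complex.real_smul, abs_of_pos (Real.exp_pos u), Complex.cpow_def_of_ne_zero hne,
    ← Complex.ofReal_log (Real.exp_pos u).le, Real.log_exp]
  simp only [nrm, summ, Complex.ofReal_mul, Complex.ofReal_sum, Complex.ofReal_exp,
    Complex.ofReal_neg]
  rw [mul_left_comm, ← Complex.exp_add, mul_assoc (∑ k ∈ _, (f k : ℂ)), ← Complex.exp_add]
  congr 2
  ring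

/-- The Laplace transform of the normalised error. -/
theorem laplace_eq (hf : ∀ n, 0 ≤ f n) {C A : ℝ} (hC : ∀ x : ℝ, 0 ≤ x → summ f x ≤ C * x)
    {G : ℂ → ℂ} (hEq : EqOn G (fun s => LSeries (fun n => (f n : ℂ)) s - A / (s - 1))
      {s | 1 < s.re}) {s : ℂ} (hs : 1 < s.re) :
    ∫ u in Ioi (0 : ℝ), ((nrm f u - A : ℝ) : ℂ) * Complex.exp (-(s - 1) * u) = (G s - A) / s := by
  have hO : (fun n : ℕ => ∑ k ∈ Finset.Icc 1 n, f k) =O[atTop] fun n : ℕ => (n : ℝ) ^ (1 : ℝ) := by
    refine Asymptotics.IsBigO.of_bound C (Eventually.of_forall fun n => ?_)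
    have h1 := hC n n.cast_nonneg
    rw [summ, Nat.floor_natCast] at h1
    simpa [abs_of_nonneg (Finset.sum_nonneg fun k _ => hf k)] using h1
  have hL := LSeries_eq_mul_integral_of_nonneg f zero_le_one hs hO hf
  rw [laplace_summ] at hL
  have hs0 : s ≠ 0 := fun h => by rw [h] at hs; simp at hs; linarith
  have hs1 : s - 1 ≠ 0 := fun h => by rw [sub_eq_zero.1 h] at hs; simp at hs
  have hre : (-(s - 1)).re < 0 := by simp; linarith
  have hi1 : IntegrableOn (fun u : ℝ => Complex.exp (-(s - 1) * u)) (Ioi 0) :=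
    integrableOn_exp_mul_complex_Ioi hre 0
  have hi2 : IntegrableOn (fun u : ℝ => (nrm f u : ℂ) * Complex.exp (-(s - 1) * u)) (Ioi 0) :=
    hi1.bdd_mul (c := C) (measurable_nrm hf).complex_ofReal.aestronglyMeasurable
      (Eventually.of_forall fun u => by
        rw [Complex.norm_real, Real.norm_eq_abs, abs_of_nonneg (nrm_nonneg hf u)]
        exact nrm_le hC u)
  simp only [Complex.ofReal_sub, sub_mul]
  rw [integral_sub hi2 (hi1.const_mul _), integral_const_mul,
    integral_exp_mul_complex_Ioi hre 0, hEq hs]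
  simp only [Complex.ofReal_zero, mul_zero, Complex.exp_zero]
  rw [hL]
  field_simp
  ring

/-- The truncated error. -/
noncomputable def err (f : ℕ → ℝ) (A : ℝ) (u : ℝ) : ℝ :=
  nrm f u - A * (Ioi (0 : ℝ)).indicator (fun _ => 1) u

theorem err_of_pos {A u : ℝ} (hu : u ∈ Ioi (0 : ℝ)) : err f A u = nrm f u - A := by
  simp [err, hu]

theorem err_of_not_pos {A u : ℝ} (hu : u < 0) : err f A u = 0 := by
  simp [err, hu.le, nrm_of_neg hu]

theorem abs_err_le (hf : ∀ n, 0 ≤ f n) {C A : ℝ} (hC : ∀ x : ℝ, 0 ≤ x → summ f x ≤ C * x)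
    (u : ℝ) : |err f A u| ≤ C + |A| := by
  have h1 := nrm_nonneg hf u
  have h2 := nrm_le hC u
  rw [err]
  by_cases hu : u ∈ Ioi (0 : ℝ) <;> simp [hu, abs_le] <;>
    constructor <;> linarith [le_abs_self A, neg_abs_le A]

theorem measurable_err (hf : ∀ n, 0 ≤ f n) (A : ℝ) : Measurable (err f A) :=
  (measurable_nrm hf).sub ((measurable_const.indicator measurableSet_Ioi).const_mul A)

/-- Fourier-side identity for a fixed `ε > 0`. -/
theorem smoothed_eq (hf : ∀ n, 0 ≤ f n) {C A : ℝ} (hC : ∀ x : ℝ, 0 ≤ x → summ f x ≤ C * x)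
    {G : ℂ → ℂ} (hEq : EqOn G (fun s => LSeries (fun n => (f n : ℂ)) s - A / (s - 1))
      {s | 1 < s.re}) {ε : ℝ} (hε : 0 < ε) (L v : ℝ) :
    ∫ u in Ioi (0 : ℝ), ((err f A u * Real.exp (-ε * u) * fejer (L * (v - u)) : ℝ) : ℂ) =
      ∫ t in (-1 : ℝ)..1, ((1 - |t| : ℝ) : ℂ) * Complex.exp ((t * (L * v) : ℝ) * I) *
        ((G (1 + ε + (t * L : ℝ) * I) - A) / (1 + ε + (t * L : ℝ) * I)) := by
  set p : ℝ → ℝ → ℂ := fun u t => ((err f A u * Real.exp (-ε * u) : ℝ) : ℂ) *
    (((1 - |t| : ℝ) : ℂ) * Complex.exp ((t * (L * (v - u)) : ℝ) * I)) with hp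
  have hE : IntegrableOn (fun u : ℝ => ((err f A u * Real.exp (-ε * u) : ℝ) : ℂ)) (Ioi 0) := by
    refine (Integrable.bdd_mul (c := C + |A|) (exp_neg_integrableOn_Ioi 0 hε)
      (measurable_err hf A).aestronglyMeasurable ?_).ofReal
    exact Eventually.of_forall fun u => abs_err_le hf hC u
  have hint : Integrable (Function.uncurry p)
      ((volume.restrict (Ioi 0)).prod (volume.restrict (Ioc (-1 : ℝ) 1))) := by
    have h1 : Integrable (fun z : ℝ × ℝ => ((err f A z.1 * Real.exp (-ε * z.1) : ℝ) : ℂ) * (1 : ℂ))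
        ((volume.restrict (Ioi 0)).prod (volume.restrict (Ioc (-1 : ℝ) 1))) :=
      hE.mul_prod (integrable_const (1 : ℂ))
    refine h1.mono ?_ ?_
    · have hme := measurable_err (f := f) hf A
      refine Measurable.aestronglyMeasurable ?_
      simp only [hp, Function.uncurry_def]
      fun_prop
    · have hmem : ∀ᵐ z ∂((volume.restrict (Ioi (0:ℝ))).prod (volume.restrict (Ioc (-1 : ℝ) 1))),
          z.2 ∈ Ioc (-1 : ℝ) 1 :=
        Measure.quasiMeasurePreserving_snd.ae (ae_restrict_mem measurableSet_Ioc)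
      filter_upwards [hmem] with z hz
      have habs : |z.2| ≤ 1 := abs_le.2 ⟨hz.1.le, hz.2⟩
      simp only [hp, Function.uncurry_def, mul_one, norm_mul, Complex.norm_exp_ofReal_mul_I]
      refine mul_le_of_le_one_right (norm_nonneg _) ?_
      rw [Complex.norm_real, Real.norm_eq_abs, abs_of_nonneg (by linarith)]
      linarith [abs_nonneg z.2]
  have hswap := integral_integral_swap hint
  rw [intervalIntegral.integral_of_le (by norm_num : (-1 : ℝ) ≤ 1)]
  have hlhs : ∀ u : ℝ, ((err f A u * Real.exp (-ε * u) * fejer (L * (v - u)) : ℝ) : ℂ) =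
      ∫ t in Ioc (-1 : ℝ) 1, p u t := by
    intro u
    rw [Complex.ofReal_mul, ← fejerC_eq, fejerC,
      intervalIntegral.integral_of_le (by norm_num : (-1 : ℝ) ≤ 1), ← integral_const_mul]
  simp_rw [hlhs]
  rw [hswap]
  refine setIntegral_congr_fun measurableSet_Ioc fun t _ => ?_
  have hre : 1 < (1 + (ε : ℂ) + (t * L : ℝ) * I).re := by simp; linarith
  rw [← laplace_eq hf hC hEq hre, ← integral_const_mul]
  refine setIntegral_congr_fun measurableSet_Ioi fun u hu => ?_
  simp only [hp, err_of_pos hu, Complex.ofReal_mul, Complex.ofReal_exp, mul_assoc]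
  rw [← mul_assoc (Complex.exp _) (((nrm f u - A : ℝ) : ℂ)), mul_comm (Complex.exp _)
    (((nrm f u - A : ℝ) : ℂ))]
  simp only [mul_assoc, ← Complex.exp_add, mul_left_comm _ (((nrm f u - A : ℝ) : ℂ))]
  congr 1
  rw [mul_left_comm, ← Complex.exp_add]
  congr 2
  push_cast
  ring

/-- The smoothed error tends to zero. -/
theorem tendsto_smoothed (hf : ∀ n, 0 ≤ f n) {C A : ℝ} (hC : ∀ x : ℝ, 0 ≤ x → summ f x ≤ C * x)
    {G : ℂ → ℂ} (hG : ContinuousOn G {s | 1 ≤ s.re})
    (hEq : EqOn G (fun s => LSeries (fun n => (f n : ℂ)) s - A / (s - 1))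
      {s | 1 < s.re}) {L : ℝ} (hL : 0 < L) :
    Tendsto (fun v : ℝ => ∫ u in Ioi (0 : ℝ), err f A u * fejer (L * (v - u))) atTop (𝓝 0) := by
  set H : ℝ × ℝ → ℂ := fun q =>
    (G (1 + q.1 + (q.2 * L : ℝ) * I) - A) / (1 + q.1 + (q.2 * L : ℝ) * I) with hH
  have hpt : ∀ q ∈ Icc (0 : ℝ) 1 ×ˢ Icc (-1 : ℝ) 1,
      1 ≤ (1 + (q.1 : ℂ) + (q.2 * L : ℝ) * I).re := by
    intro q hq
    simp
    exact hq.1.1
  have hHc : ContinuousOn H (Icc (0 : ℝ) 1 ×ˢ Icc (-1 : ℝ) 1) := by
    refine ContinuousOn.div ((hG.comp (by fun_prop) hpt).sub continuousOn_const) (by fun_prop) ?_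
    intro q hq h
    have := hpt q hq
    rw [h] at this
    simp at this
    linarith
  obtain ⟨B, hB⟩ := (isCompact_Icc.prod isCompact_Icc).exists_bound_of_continuousOn hHc
  set g : ℝ → ℂ := (Ioc (-1 : ℝ) 1).indicator
    (fun t => ((1 - |t| : ℝ) : ℂ) * H (0, t)) with hg
  have key : ∀ v : ℝ, ((∫ u in Ioi (0 : ℝ), err f A u * fejer (L * (v - u)) : ℝ) : ℂ) =
      ∫ t : ℝ, Real.fourierChar (-(t * (-(L * v) / (2 * π)))) • g t := by
    intro v
    set εn : ℕ → ℝ := fun n => ((n : ℝ) + 1)⁻¹ with hεn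
    have hεpos : ∀ n, 0 < εn n := fun n => by positivity
    have hεle : ∀ n, εn n ≤ 1 := fun n => inv_le_one_of_one_le₀ (by simp)
    have hεlim : Tendsto εn atTop (𝓝 0) :=
      tendsto_inv_atTop_zero.comp
        (tendsto_atTop_add_const_right _ 1 tendsto_natCast_atTop_atTop)
    have hker : Integrable (fun u => fejer (L * (v - u))) :=
      (integrable_fejer.comp_mul_left' hL.ne').comp_sub_left v
    have h1 : Tendsto (fun n => ∫ u in Ioi (0 : ℝ),
        ((err f A u * Real.exp (-εn n * u) * fejer (L * (v - u)) : ℝ) : ℂ)) atTop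
        (𝓝 (∫ u in Ioi (0 : ℝ), ((err f A u * fejer (L * (v - u)) : ℝ) : ℂ))) := by
      refine tendsto_integral_of_dominated_convergence
        (fun u => (C + |A|) * fejer (L * (v - u))) (fun n => ?_)
        (hker.const_mul _).integrableOn (fun n => ?_) (Eventually.of_forall fun u => ?_)
      · have hme := measurable_err (f := f) hf A
        have hmf : Measurable fejer := continuous_fejer.measurable
        refine Measurable.aestronglyMeasurable ?_
        fun_prop
      · filter_upwards [ae_restrict_mem measurableSet_Ioi] with u hu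
        rw [Complex.norm_real, Real.norm_eq_abs, abs_mul, abs_mul, Real.abs_exp,
          abs_of_nonneg (fejer_nonneg _)]
        refine mul_le_mul_of_nonneg_right ?_ (fejer_nonneg _)
        refine mul_le_of_le_one_right (abs_nonneg _) ?_ |>.trans (abs_err_le hf hC u)
        rw [Real.exp_le_one_iff, neg_mul, neg_nonpos]
        exact mul_nonneg (hεpos n).le (le_of_lt hu)
      · have hc : Continuous fun e : ℝ =>
            ((err f A u * Real.exp (-e * u) * fejer (L * (v - u)) : ℝ) : ℂ) := by fun_prop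
        simpa [Function.comp_def] using (hc.tendsto 0).comp hεlim
    have h2 : Tendsto (fun n => ∫ t in Ioc (-1 : ℝ) 1, ((1 - |t| : ℝ) : ℂ) *
        Complex.exp ((t * (L * v) : ℝ) * I) * H (εn n, t)) atTop
        (𝓝 (∫ t in Ioc (-1 : ℝ) 1, ((1 - |t| : ℝ) : ℂ) *
          Complex.exp ((t * (L * v) : ℝ) * I) * H (0, t))) := by
      refine tendsto_integral_of_dominated_convergence (fun _ => B) (fun n => ?_)
        (integrable_const B) (fun n => ?_) ?_
      · refine ContinuousOn.aestronglyMeasurable ?_ measurableSet_Ioc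
        exact (Continuous.continuousOn (by fun_prop)).mul
          (hHc.comp (by fun_prop) fun t ht => ⟨⟨(hεpos n).le, hεle n⟩, Ioc_subset_Icc_self ht⟩)
      · filter_upwards [ae_restrict_mem measurableSet_Ioc] with t ht
        rw [norm_mul, norm_mul, Complex.norm_exp_ofReal_mul_I, mul_one, Complex.norm_real,
          Real.norm_eq_abs]
        have habs : |t| ≤ 1 := abs_le.2 ⟨ht.1.le, ht.2⟩
        refine (mul_le_of_le_one_left (norm_nonneg _) ?_).trans
          (hB _ ⟨⟨(hεpos n).le, hεle n⟩, Ioc_subset_Icc_self ht⟩)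
        rw [abs_of_nonneg (by linarith)]
        linarith [abs_nonneg t]
      · filter_upwards [ae_restrict_mem measurableSet_Ioc] with t ht
        refine Tendsto.const_mul _ ?_
        refine (hHc (0, t) ⟨⟨le_rfl, zero_le_one⟩, Ioc_subset_Icc_self ht⟩).tendsto.comp ?_
        refine tendsto_nhdsWithin_iff.2 ⟨hεlim.prodMk_nhds tendsto_const_nhds,
          Eventually.of_forall fun n => ⟨⟨(hεpos n).le, hεle n⟩, Ioc_subset_Icc_self ht⟩⟩
    have heq : ∀ n, (∫ u in Ioi (0 : ℝ),
        ((err f A u * Real.exp (-εn n * u) * fejer (L * (v - u)) : ℝ) : ℂ)) =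
        ∫ t in Ioc (-1 : ℝ) 1, ((1 - |t| : ℝ) : ℂ) *
          Complex.exp ((t * (L * v) : ℝ) * I) * H (εn n, t) := fun n => by
      rw [smoothed_eq hf hC hEq (hεpos n),
        intervalIntegral.integral_of_le (by norm_num : (-1 : ℝ) ≤ 1)]
    simp_rw [heq] at h1
    rw [← integral_complex_ofReal, tendsto_nhds_unique h1 h2, ← integral_indicator measurableSet_Ioc]
    refine integral_congr_ae (Eventually.of_forall fun t => ?_)
    simp only [hg, Real.fourierChar_apply, Circle.smul_def, smul_eq_mul]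
    by_cases ht : t ∈ Ioc (-1 : ℝ) 1
    · rw [indicator_of_mem ht, indicator_of_mem ht]
      have : 2 * π * -(t * (-(L * v) / (2 * π))) = t * (L * v) := by field_simp
      rw [this]
      ring
    · simp [indicator_of_notMem ht]
  have hRL : Tendsto (fun v : ℝ => ∫ t : ℝ,
      Real.fourierChar (-(t * (-(L * v) / (2 * π)))) • g t) atTop (𝓝 0) :=
    (Real.tendsto_integral_exp_smul_cocompact g).comp
      ((((tendsto_id.const_mul_atTop hL).atTop_div_const (by positivity : (0:ℝ) < 2 * π)
        |> tendsto_neg_atTop_atBot.comp).mono_right atBot_le_cocompact).congr fun v => by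
          simp [neg_div])
  have := (Complex.continuous_re.tendsto 0).comp hRL
  refine this.congr fun v => ?_
  simp only [Function.comp_apply, ← key v, Complex.ofReal_re]

theorem tendsto_window_avg (hf : ∀ n, 0 ≤ f n) {C A : ℝ}
    (hC : ∀ x : ℝ, 0 ≤ x → summ f x ≤ C * x) {G : ℂ → ℂ} (hG : ContinuousOn G {s | 1 ≤ s.re})
    (hEq : EqOn G (fun s => LSeries (fun n => (f n : ℂ)) s - A / (s - 1))
      {s | 1 < s.re}) {L : ℝ} (hL : 0 < L) :
    Tendsto (fun v : ℝ => ∫ y, nrm f (v - y / L) * fejer y) atTop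
      (𝓝 (A * ∫ y, fejer y)) := by
  have hk : ∀ v : ℝ, ∫ y, err f A (v - y / L) * fejer y =
      L * ∫ u in Ioi (0 : ℝ), err f A u * fejer (L * (v - u)) := by
    intro v
    have h1 : ∫ u in Ioi (0 : ℝ), err f A u * fejer (L * (v - u)) =
        ∫ u, err f A u * fejer (L * (v - u)) := by
      rw [← integral_Ici_eq_integral_Ioi]
      exact setIntegral_eq_integral_of_forall_compl_eq_zero fun u hu => by
        rw [err_of_not_pos (by simpa using hu), zero_mul]
    rw [h1, ← integral_sub_left_eq_self (fun u => err f A u * fejer (L * (v - u))) volume v]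
    have h2 := Measure.integral_comp_div (fun w => err f A (v - w) * fejer (L * w)) L
    simp only [sub_sub_cancel, abs_of_pos hL, smul_eq_mul] at h2 ⊢
    rw [← h2]
    refine integral_congr_ae (Eventually.of_forall fun y => ?_)
    simp only
    rw [mul_div_cancel₀ _ hL.ne']
  have herr : Tendsto (fun v : ℝ => ∫ y, err f A (v - y / L) * fejer y) atTop (𝓝 0) := by
    simp_rw [hk]
    simpa using (tendsto_smoothed hf hC hG hEq hL).const_mul L
  have hone : Tendsto (fun v : ℝ => ∫ y, (Ioi (0 : ℝ)).indicator (fun _ => 1) (v - y / L) * fejer y)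
      atTop (𝓝 (∫ y, fejer y)) := by
    refine tendsto_integral_filter_of_dominated_convergence fejer
      (Eventually.of_forall fun v => ?_) (Eventually.of_forall fun v => ?_) integrable_fejer
      (Eventually.of_forall fun y => ?_)
    · exact (((measurable_const.indicator measurableSet_Ioi).comp (by fun_prop)).mul
        continuous_fejer.measurable).aestronglyMeasurable
    · refine Eventually.of_forall fun y => ?_
      rw [Real.norm_eq_abs, abs_mul, abs_of_nonneg (fejer_nonneg y)]
      refine mul_le_of_le_one_left (fejer_nonneg y) ?_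
      by_cases h : v - y / L ∈ Ioi (0 : ℝ) <;> simp [h]
    · refine tendsto_const_nhds.congr' ?_
      filter_upwards [eventually_gt_atTop (y / L)] with v hv
      rw [indicator_of_mem (show v - y / L ∈ Ioi (0 : ℝ) by simpa using hv), one_mul]
  have hsum := herr.add (hone.const_mul A)
  simp only [zero_add] at hsum
  refine hsum.congr fun v => ?_
  rw [← integral_const_mul, ← integral_add]
  · refine integral_congr_ae (Eventually.of_forall fun y => ?_)
    simp only [err]
    ring
  · refine integrable_fejer.bdd_mul (c := C + |A|)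
      ((measurable_err hf A).comp (by fun_prop)).aestronglyMeasurable
      (Eventually.of_forall fun y => by rw [Real.norm_eq_abs]; exact abs_err_le hf hC _)
  · refine (integrable_fejer.bdd_mul (c := 1)
      ((measurable_const.indicator measurableSet_Ioi).comp (by fun_prop)).aestronglyMeasurable
      (Eventually.of_forall fun y => ?_)).const_mul A
    by_cases h : v - y / L ∈ Ioi (0 : ℝ) <;> simp [h]

theorem nrm_le_of_le (hf : ∀ n, 0 ≤ f n) {u v : ℝ} (h : u ≤ v) :
    nrm f u ≤ nrm f v * Real.exp (v - u) := by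
  rw [nrm, nrm, mul_assoc, ← Real.exp_add, show -v + (v - u) = -u by ring]
  exact mul_le_mul_of_nonneg_right (summ_mono hf (Real.exp_le_exp.2 h)) (Real.exp_pos _).le

/-- **Wiener–Ikehara theorem**. -/
theorem wiener_ikehara (hf : ∀ n, 0 ≤ f n) {C A : ℝ}
    (hC : ∀ x : ℝ, 0 ≤ x → summ f x ≤ C * x) {G : ℂ → ℂ} (hG : ContinuousOn G {s | 1 ≤ s.re})
    (hEq : EqOn G (fun s => LSeries (fun n => (f n : ℂ)) s - A / (s - 1))
      {s | 1 < s.re}) :
    Tendsto (fun x : ℝ => summ f x / x) atTop (𝓝 A) := by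
  set c := ∫ y, fejer y with hc
  have hcpos : 0 < c := integral_fejer_pos
  have hwin := tendsto_window
  have hC0 : 0 ≤ C := (nrm_nonneg hf 0).trans (nrm_le hC 0)
  have hint : ∀ v L : ℝ, Integrable (fun y => nrm f (v - y / L) * fejer y) := fun v L =>
    integrable_fejer.bdd_mul (c := C) ((measurable_nrm hf).comp (by fun_prop)).aestronglyMeasurable
      (Eventually.of_forall fun y => by
        rw [Real.norm_eq_abs, abs_of_nonneg (nrm_nonneg hf _)]; exact nrm_le hC _)
  -- upper bound
  have hup : ∀ δ > 0, ∀ R > 0, 0 < ∫ y in Icc (-R) R, fejer y → ∀ η > 0, ∀ᶠ v in atTop,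
      nrm f v * Real.exp (-(2 * δ)) * (∫ y in Icc (-R) R, fejer y) ≤ A * c + η := by
    intro δ hδ R hR _ η hη
    have h := ((tendsto_window_avg hf hC hG hEq (div_pos hR hδ)).comp
      (tendsto_atTop_add_const_right _ δ tendsto_id)).eventually (eventually_le_nhds (lt_add_of_pos_right _ hη))
    filter_upwards [h] with v hv
    refine le_trans ?_ hv
    refine le_trans ?_ (setIntegral_le_integral (hint _ _)
      (Eventually.of_forall fun y => mul_nonneg (nrm_nonneg hf _) (fejer_nonneg y))
      (s := Icc (-R) R))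
    rw [← integral_const_mul]
    refine setIntegral_mono_on (integrable_fejer.const_mul _).integrableOn
      (hint _ _).integrableOn measurableSet_Icc fun y hy => ?_
    refine mul_le_mul_of_nonneg_right ?_ (fejer_nonneg y)
    have h1 : |y / (R / δ)| ≤ δ := by
      rw [abs_div, abs_of_pos (div_pos hR hδ), div_le_iff₀ (div_pos hR hδ), mul_div_cancel₀ _ hδ.ne']
      exact abs_le.2 hy
    rw [abs_le] at h1
    have h2 : v ≤ id v + δ - y / (R / δ) := by simp only [id]; linarith
    have h3 := nrm_le_of_le hf h2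
    rw [Real.exp_neg, ← div_eq_mul_inv, div_le_iff₀ (Real.exp_pos _)]
    refine h3.trans (mul_le_mul_of_nonneg_left (Real.exp_le_exp.2 ?_) (nrm_nonneg hf _))
    simp only [id]
    linarith
  -- lower bound
  have hlow : ∀ δ > 0, ∀ R > 0, ∀ η > 0, ∀ᶠ v in atTop,
      A * c - η ≤ nrm f v * Real.exp (2 * δ) * c + C * (c - ∫ y in Icc (-R) R, fejer y) := by
    intro δ hδ R hR η hη
    have h := ((tendsto_window_avg hf hC hG hEq (div_pos hR hδ)).comp
      (tendsto_atTop_add_const_right _ (-δ) tendsto_id)).eventually (eventually_ge_nhds (sub_lt_self _ hη))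
    filter_upwards [h] with v hv
    refine hv.trans ?_
    simp only [Function.comp_apply, id]
    rw [← integral_add_compl (measurableSet_Icc (a := -R) (b := R)) (hint _ _)]
    refine add_le_add ?_ ?_
    · refine le_trans ?_ (mul_le_mul_of_nonneg_left (setIntegral_le_integral integrable_fejer
        (Eventually.of_forall fejer_nonneg) (s := Icc (-R) R))
        (mul_nonneg (nrm_nonneg hf _) (Real.exp_pos _).le))
      rw [← integral_const_mul]
      refine setIntegral_mono_on (hint _ _).integrableOn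
        (integrable_fejer.const_mul _).integrableOn measurableSet_Icc fun y hy => ?_
      refine mul_le_mul_of_nonneg_right ?_ (fejer_nonneg y)
      have h1 : |y / (R / δ)| ≤ δ := by
        rw [abs_div, abs_of_pos (div_pos hR hδ), div_le_iff₀ (div_pos hR hδ), mul_div_cancel₀ _ hδ.ne']
        exact abs_le.2 hy
      rw [abs_le] at h1
      refine (nrm_le_of_le hf (show v + -δ - y / (R / δ) ≤ v by linarith)).trans ?_
      exact mul_le_mul_of_nonneg_left (Real.exp_le_exp.2 (by linarith)) (nrm_nonneg hf _)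
    · rw [← setIntegral_compl measurableSet_Icc integrable_fejer, ← integral_const_mul]
      refine setIntegral_mono_on (hint _ _).integrableOn
        (integrable_fejer.const_mul _).integrableOn measurableSet_Icc.compl fun y _ => ?_
      exact mul_le_mul_of_nonneg_right (nrm_le hC _) (fejer_nonneg y)
  have hnrm : Tendsto (nrm f) atTop (𝓝 A) := by
    rw [Metric.tendsto_nhds]
    intro ε hε
    -- choose the parameters
    have hlim1 : Tendsto (fun p : ℝ × ℝ × ℝ => (A * c + p.2.2) * Real.exp (2 * p.1) / p.2.1)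
        (𝓝 (0, c, 0)) (𝓝 A) := by
      have : ContinuousAt (fun p : ℝ × ℝ × ℝ => (A * c + p.2.2) * Real.exp (2 * p.1) / p.2.1)
          (0, c, 0) := by
        fun_prop (disch := exact hcpos.ne')
      simpa [hcpos.ne'] using this.tendsto
    have hlim2 : Tendsto (fun p : ℝ × ℝ × ℝ =>
        (A * c - p.2.2 - C * (c - p.2.1)) * Real.exp (-(2 * p.1)) / c)
        (𝓝 (0, c, 0)) (𝓝 A) := by
      have : Continuous (fun p : ℝ × ℝ × ℝ =>
          (A * c - p.2.2 - C * (c - p.2.1)) * Real.exp (-(2 * p.1)) / c) := by fun_prop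
      simpa [hcpos.ne'] using this.tendsto (0, c, 0)
    have he := (hlim1.eventually (eventually_lt_nhds (lt_add_of_pos_right A hε))).and
      (hlim2.eventually (eventually_gt_nhds (sub_lt_self A hε)))
    have hpair : Tendsto (fun R : ℝ => (R⁻¹, ∫ y in Icc (-R) R, fejer y, R⁻¹)) atTop
        (𝓝 (0, c, 0)) :=
      tendsto_inv_atTop_zero.prodMk_nhds (hwin.prodMk_nhds tendsto_inv_atTop_zero)
    obtain ⟨R, ⟨hR1, hR2⟩, hRpos, hRc⟩ := ((hpair.eventually he).and
      ((eventually_gt_atTop 0).and (hwin.eventually (eventually_gt_nhds hcpos)))).exists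
    have hδ : 0 < R⁻¹ := inv_pos.2 hRpos
    filter_upwards [hup _ hδ R hRpos hRc _ hδ, hlow _ hδ R hRpos _ hδ] with v h1 h2
    rw [Real.dist_eq, abs_lt]
    simp only at hR1 hR2
    constructor
    · have : (A * c - R⁻¹ - C * (c - ∫ y in Icc (-R) R, fejer y)) * Real.exp (-(2 * R⁻¹)) / c
          ≤ nrm f v := by
        rw [Real.exp_neg, ← div_eq_mul_inv, div_div, div_le_iff₀ (by positivity)]
        linarith
      linarith
    · have : nrm f v ≤ (A * c + R⁻¹) * Real.exp (2 * R⁻¹) / ∫ y in Icc (-R) R, fejer y := by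
        rw [le_div_iff₀ hRc, ← div_le_iff₀ (Real.exp_pos _), div_eq_mul_inv, ← Real.exp_neg]
        linarith
      linarith
  refine (hnrm.comp Real.tendsto_log_atTop).congr' ?_
  filter_upwards [eventually_gt_atTop 0] with x hx
  simp [nrm, Real.exp_log hx, Real.exp_neg, div_eq_mul_inv]

end Vale.Agent.Common.PNT
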